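import Mathlib

/-! # P133: the adjoint of a compact operator is compact -/

namespace Vale.Agent.P133K

theorem compact_star {E : Type*} [NormedAddCommGroup E] [InnerProductSpace ℂ E]
    [CompleteSpace E] {T : E →L[ℂ] E} (hT : IsCompactOperator T) :
    IsCompactOperator (star T : E →L[ℂ] E) := by
  have h2 : IsCompactOperator ((T * star T : E →L[ℂ] E) : E →ₗ[ℂ] E) := hT.comp_clm (star T)
  change IsCompactOperator ((star T : E →L[ℂ] E) : E →ₗ[ℂ] E)
  rw [isCompactOperator_iff_isCompact_closure_image_closedBall _ zero_lt_one] at h2 ⊢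
  have h3 : TotallyBounded ((T * star T : E →L[ℂ] E) '' Metric.closedBall 0 1) :=
    h2.totallyBounded.subset subset_closure
  suffices h : TotallyBounded ((star T : E →L[ℂ] E) '' Metric.closedBall 0 1) from
    h.closure.isCompact_of_isClosed isClosed_closure
  refine Metric.totallyBounded_iff.2 fun ε hε => ?_
  obtain ⟨t, ht, hf, hcov⟩ := Metric.finite_approx_of_totallyBounded h3 (ε ^ 2 / 4) (by positivity)
  choose! w hw using fun y (hy : y ∈ t) => ht hy
  refine ⟨(fun y => (star T : E →L[ℂ] E) (w y)) '' t, hf.image _, ?_⟩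
  rintro _ ⟨x, hx, rfl⟩
  have hx' := hcov ⟨x, hx, rfl⟩
  simp only [Set.mem_iUnion, Metric.mem_ball, exists_prop] at hx' ⊢
  obtain ⟨y, hy, hd⟩ := hx'
  obtain ⟨hw1, hw2⟩ := hw y hy
  refine ⟨_, ⟨y, hy, rfl⟩, ?_⟩
  rw [← hw2] at hd
  have hxw : ‖x - w y‖ ≤ 2 := by
    have := norm_sub_le x (w y)
    rw [mem_closedBall_zero_iff] at hx hw1
    linarith only [this, hw1, hx]
  have key : ‖(star T : E →L[ℂ] E) (x - w y)‖ ^ 2 ≤
      ‖(T * star T : E →L[ℂ] E) (x - w y)‖ * ‖x - w y‖ := by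
    rw [← inner_self_eq_norm_sq (𝕜 := ℂ)]
    rw [ContinuousLinearMap.star_eq_adjoint, ContinuousLinearMap.adjoint_inner_right]
    exact (re_inner_le_norm _ _)
  rw [dist_eq_norm, ← map_sub] at hd ⊢
  have : ‖(star T : E →L[ℂ] E) (x - w y)‖ ^ 2 < ε ^ 2 := by
    calc _ ≤ _ := key
      _ ≤ ‖(T * star T : E →L[ℂ] E) (x - w y)‖ * 2 := by gcongr
      _ < ε ^ 2 / 4 * 2 := by gcongr
      _ ≤ ε ^ 2 := by linarith only [sq_nonneg ε]
  exact lt_of_pow_lt_pow_left₀ 2 hε.le this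

end Vale.Agent.P133K
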