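import Vale.Agent.P133K50.Cpt

/-! # P133: Cuntz comparison in `A ⊗ K` -/

namespace Vale.Agent.P133K

open Filter Topology

noncomputable section

/-- the Hilbert space `ℓ²(ℕ)` -/
abbrev L2 : Type := lp (fun _ : ℕ => ℂ) 2

/-- the compact operators on `ℓ²(ℕ)` -/
def K : NonUnitalStarSubalgebra ℂ (L2 →L[ℂ] L2) where
  carrier := {T | IsCompactOperator T}
  add_mem' := IsCompactOperator.add
  zero_mem' := isCompactOperator_zero
  mul_mem' := fun {_ b} h _ => IsCompactOperator.comp_clm h b
  smul_mem' := fun c _ h => IsCompactOperator.smul h c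
  star_mem' := compact_star

/-- the matrix unit `e_ij`: `ξ ↦ ⟪δ_j, ξ⟫ δ_i` -/
def eu (i j : ℕ) : K :=
  ⟨InnerProductSpace.rankOne ℂ (lp.single 2 i 1) (lp.single 2 j 1),
    (isCompactOperator_of_locallyCompactSpace_dom (innerSL ℂ (lp.single 2 j 1 : L2))).clm_comp
      (ContinuousLinearMap.toSpanSingleton ℂ (lp.single 2 i 1 : L2))⟩

variable {A B : Type*} [NonUnitalCStarAlgebra A] [NonUnitalCStarAlgebra B]

/-- `B` is, by `a ⊗ k ↦ T a k`, a C*-completion of the algebraic tensor product of `A` and `K` -/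
structure IsStab (T : A →ₗ[ℂ] K →ₗ[ℂ] B) : Prop where
  map_mul : ∀ a a' k k', T (a * a') (k * k') = T a k * T a' k'
  map_star : ∀ a k, T (star a) (star k) = star (T a k)
  injective : Function.Injective (TensorProduct.lift T)
  dense : DenseRange (TensorProduct.lift T)

/-- Cuntz comparison in `B` -/
def Cuntz (u v : B) : Prop :=
  ∃ x : ℕ → B, Tendsto (fun j => ‖star (x j) * v * x j - u‖) atTop (𝓝 0)

variable (T : A →ₗ[ℂ] K →ₗ[ℂ] B)

/-- a matrix over `A`, in the upper-left corner of `A ⊗ K` -/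
def corner {n : ℕ} (m : Matrix (Fin n) (Fin n) A) : B :=
  ∑ i : Fin n, ∑ j : Fin n, T (m i j) (eu i j)

/-- `diag (m, m)` is Cuntz below `m` -/
def PropInf {n : ℕ} (m : Matrix (Fin n) (Fin n) A) : Prop :=
  Cuntz (corner T (Matrix.reindex finSumFinEquiv finSumFinEquiv (Matrix.fromBlocks m 0 0 m)))
    (corner T m)

variable [PartialOrder A]

/-- purely infinite: every positive element is properly infinite -/
def PI : Prop := ∀ h : A, 0 ≤ h → PropInf T !![h]

/-- weakly purely infinite: for some `n ≥ 1` the `n`-fold amplification of every positive element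
is properly infinite -/
def WPI : Prop :=
  ∃ n : ℕ, 1 ≤ n ∧ ∀ h : A, 0 ≤ h → PropInf T (Matrix.diagonal fun _ : Fin n => h)

end

end Vale.Agent.P133K
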