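import Vale.Agent.P133K50.Defs
import Vale.Agent.P133F.Defs

/-! # P133: Cuntz comparison in `A ⊗ K` is Cuntz comparison of finite matrices -/

set_option linter.all false

namespace Vale.Agent.P133K

open Filter Topology Vale.Agent.P133.Statement Vale.Agent.P133F InnerProductSpace
open scoped TensorProduct

noncomputable section

/-- the standard basis vectors -/
abbrev dl (i : ℕ) : L2 := lp.single 2 i 1

theorem inner_dl (i j : ℕ) : inner ℂ (dl i) (dl j) = if i = j then 1 else 0 := by
  rw [lp.inner_single_left, lp.single_apply, Pi.single_apply]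
  split_ifs <;> simp

/-- matrix coefficients -/
def co (i j : ℕ) : K →ₗ[ℂ] ℂ where
  toFun c := inner ℂ (dl i) (c.1 (dl j))
  map_add' c d := by simp [inner_add_right]
  map_smul' z c := by simp [inner_smul_right]

theorem co_eu (p q i j : ℕ) : co p q (eu i j) = if j = q then if p = i then 1 else 0 else 0 := by
  show inner ℂ (dl p) (inner ℂ (dl j) (dl q) • dl i) = _
  rw [inner_smul_right, inner_dl, inner_dl]
  split_ifs <;> simp

theorem eu_mid (i j k l : ℕ) (c : K) : eu i j * c * eu k l = co j k c • eu i l := by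
  refine Subtype.ext (ContinuousLinearMap.ext fun x => ?_)
  show inner ℂ (dl j) (c.1 (inner ℂ (dl l) x • dl k)) • dl i =
    inner ℂ (dl j) (c.1 (dl k)) • inner ℂ (dl l) x • dl i
  rw [map_smul, inner_smul_right, smul_smul, mul_comm]

theorem eu_mul (i j k l : ℕ) : eu i j * eu k l = if j = k then eu i l else 0 := by
  have : eu i j * eu k l = inner ℂ (dl j) (dl k) • eu i l :=
    Subtype.ext (rankOne_comp_rankOne _ _ _ _)
  rw [this, inner_dl]
  split_ifs <;> simp

theorem eu_star (i j : ℕ) : star (eu i j) = eu j i := Subtype.ext (adjoint_rankOne _ _)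

variable {A B : Type*} [NonUnitalCStarAlgebra A] [NonUnitalCStarAlgebra B] [PartialOrder A]
  [StarOrderedRing A] {T : A →ₗ[ℂ] K →ₗ[ℂ] B} (hT : IsStab T)

/-- the embedding of the matrices over `A` -/
def emb (n : ℕ) : CStarMatrix (Fin n) (Fin n) A →⋆ₙₐ[ℂ] B where
  toFun m := corner T (CStarMatrix.ofMatrix.symm m)
  map_smul' z m := by simp [corner, Finset.smul_sum]
  map_zero' := by simp [corner]
  map_add' m m' := by simp [corner, Finset.sum_add_distrib]
  map_mul' m m' := by
    simp only [corner, CStarMatrix.ofMatrix_symm_apply, CStarMatrix.mul_apply, map_sum,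
      Finset.sum_mul, Finset.mul_sum, ← hT.map_mul, eu_mul, Fin.val_inj, LinearMap.sum_apply,
      apply_ite (T _), map_zero]
    refine Eq.symm ((Finset.sum_congr rfl fun k _ => Finset.sum_comm).trans ?_)
    rw [Finset.sum_comm]
    refine Finset.sum_congr rfl fun i _ => ?_
    rw [Finset.sum_comm]
    refine Finset.sum_congr rfl fun l _ => ?_
    simp
  map_star' m := by
    simp only [corner, CStarMatrix.ofMatrix_symm_apply, CStarMatrix.star_apply, star_sum,
      ← hT.map_star, eu_star]
    exact Finset.sum_comm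

theorem emb_inj (n : ℕ) : Function.Injective (emb hT n) := by
  refine (injective_iff_map_eq_zero _).2 fun m h => CStarMatrix.ext fun p q => ?_
  have h1 : (∑ i : Fin n, ∑ j : Fin n, m i j ⊗ₜ[ℂ] eu i j) = 0 := hT.injective (by
    rw [map_zero, ← h]
    simp only [map_sum, TensorProduct.lift.tmul]
    rfl)
  have h2 := congrArg (fun t => TensorProduct.rid ℂ A ((co p q).lTensor A t)) h1
  simpa [co_eu, Fin.val_inj] using h2

theorem norm_emb {n : ℕ} (m : CStarMatrix (Fin n) (Fin n) A) : ‖emb hT n m‖ = ‖m‖ :=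
  NonUnitalStarAlgHom.norm_map _ (emb_inj hT n) m

theorem corner_add {k n : ℕ} (M : Matrix (Fin (k + n)) (Fin (k + n)) A)
    (m : Matrix (Fin k) (Fin k) A) (h1 : ∀ i j, M (Fin.castAdd n i) (Fin.castAdd n j) = m i j)
    (h2 : ∀ i j, M i (Fin.natAdd k j) = 0) (h3 : ∀ i j, M (Fin.natAdd k i) j = 0) :
    corner T M = corner T m := by
  simp only [corner, Fin.sum_univ_add, h1, h2, h3, map_zero, LinearMap.zero_apply,
    Finset.sum_const_zero, add_zero, Fin.val_castAdd]

theorem emb_pad {k : ℕ} (n : ℕ) (m : CStarMatrix (Fin k) (Fin k) A) :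
    emb hT (k + n) (pad n m) = emb hT k m := by
  refine corner_add _ _ (fun i j => dif_pos ⟨i.2, j.2⟩) (fun i j => dif_neg ?_) fun i j => dif_neg ?_
  · simp
  · simp

theorem emb_dsum {k : ℕ} (m : CStarMatrix (Fin k) (Fin k) A) :
    emb hT (k + k) (dsum m (0 : CStarMatrix (Fin k) (Fin k) A)) = emb hT k m := by
  refine corner_add _ _ (fun i j => ?_) (fun i j => ?_) fun i j => ?_
  · simp [dsum]
  · show Matrix.fromBlocks _ _ _ _ (finSumFinEquiv.symm i) (finSumFinEquiv.symm _) = 0
    rw [finSumFinEquiv_symm_apply_natAdd]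
    cases finSumFinEquiv.symm i <;> rfl
  · show Matrix.fromBlocks _ _ _ _ (finSumFinEquiv.symm _) (finSumFinEquiv.symm j) = 0
    rw [finSumFinEquiv_symm_apply_natAdd]
    cases finSumFinEquiv.symm j <;> rfl

/-- the diagonal embedding -/
def dg (n : ℕ) : A →⋆ₙₐ[ℂ] CStarMatrix (Fin n) (Fin n) A where
  toFun := diagN n
  map_smul' z a := Matrix.diagonal_smul z fun _ => a
  map_zero' := Matrix.diagonal_zero
  map_add' a b := (Matrix.diagonal_add _ _).symm
  map_mul' a b := (Matrix.diagonal_mul_diagonal _ _).symm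
  map_star' a := (Matrix.diagonal_conjTranspose fun _ => a).symm

theorem emb_dg (n : ℕ) (f : A) : emb hT n (dg n f) = ∑ i : Fin n, T f (eu i i) := by
  show ∑ i : Fin n, ∑ j : Fin n, T (Matrix.diagonal (fun _ => f) i j) (eu i j) = _
  refine Finset.sum_congr rfl fun i _ => ?_
  rw [Finset.sum_eq_single i (fun j _ h => by simp [Matrix.diagonal_apply_ne _ h.symm]) (by simp),
    Matrix.diagonal_apply_eq]

theorem compress (n : ℕ) (f : A) (t : A ⊗[ℂ] K) :
    ∃ y, emb hT n y = emb hT n (dg n f) * TensorProduct.lift T t * emb hT n (dg n f) := by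
  induction t with
  | zero => exact ⟨0, by simp⟩
  | add s t hs ht =>
    obtain ⟨y, hy⟩ := hs
    obtain ⟨z, hz⟩ := ht
    exact ⟨y + z, by rw [map_add, map_add, mul_add, add_mul, hy, hz]⟩
  | tmul a c =>
    refine ⟨CStarMatrix.ofMatrix fun i j => co i j c • (f * a * f), ?_⟩
    simp only [emb_dg, TensorProduct.lift.tmul, Finset.sum_mul, Finset.mul_sum, ← hT.map_mul,
      eu_mid, map_smul]
    rw [Finset.sum_comm]
    show ∑ i : Fin n, ∑ j : Fin n, T (co i j c • (f * a * f)) (eu i j) = _
    simp only [map_smul, LinearMap.smul_apply]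

theorem tendsto_dg {n : ℕ} (m : CStarMatrix (Fin n) (Fin n) A) :
    Tendsto (fun f => dg n f * m * dg n f) (CStarAlgebra.approximateUnit A) (𝓝 m) := by
  refine tendsto_pi_nhds.2 fun i => tendsto_pi_nhds.2 fun j => ?_
  have h := CStarAlgebra.increasingApproximateUnit A
  have e : ∀ f : A, (dg n f * m * dg n f) i j = (f * m i j - m i j) * f + m i j * f := fun f => by
    rw [sub_mul, sub_add_cancel]
    exact (Matrix.mul_diagonal _ _ i j).trans (congrArg (· * f) (Matrix.diagonal_mul _ _ i j))
  simp only [e]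
  have h1 : Tendsto (fun f => (f * m i j - m i j) * f) (CStarAlgebra.approximateUnit A) (𝓝 0) := by
    refine squeeze_zero_norm' ?_ (tendsto_iff_norm_sub_tendsto_zero.1 (h.tendsto_mul_right (m i j)))
    filter_upwards [h.eventually_norm] with f hf
    exact (norm_mul_le _ _).trans (mul_le_of_le_one_right (norm_nonneg _) hf)
  simpa using h1.add (h.tendsto_mul_left (m i j))

theorem cuntz_iff {k : ℕ} (u v : CStarMatrix (Fin k) (Fin k) A) :
    Cuntz (emb hT k u) (emb hT k v) ↔ CuntzLE u v := by
  constructor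
  · rintro ⟨x, hx⟩ ε hε
    obtain ⟨t, ht⟩ := hT.dense.exists_mem_open
      (s := {z | ‖star z * emb hT k v * z - emb hT k u‖ < ε / 2})
      (isOpen_lt (by fun_prop) continuous_const)
      ((hx.eventually_lt_const (half_pos hε)).exists.elim fun j h => ⟨x j, h⟩)
    rw [Set.mem_ofPred_eq] at ht
    set z := TensorProduct.lift T t
    have h := CStarAlgebra.increasingApproximateUnit A
    have l1 := ((tendsto_iff_norm_sub_tendsto_zero.1 (tendsto_dg v)).const_mul (‖z‖ * ‖z‖)).add
      (tendsto_iff_norm_sub_tendsto_zero.1 (tendsto_dg u))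
    rw [mul_zero, add_zero] at l1
    obtain ⟨f, h1, h2, h3⟩ := ((l1.eventually_lt_const (half_pos hε)).and
      (h.eventually_norm.and h.eventually_star_eq)).exists
    obtain ⟨y, hy⟩ := compress hT k f t
    refine ⟨0, y, ?_⟩
    have e : ∀ m : CStarMatrix (Fin k) (Fin k) A, pad 0 m = m := fun m =>
      CStarMatrix.ext fun i j => dif_pos ⟨i.2, j.2⟩
    rw [← norm_emb hT (dg k f * v * dg k f - v), ← norm_emb hT (dg k f * u * dg k f - u)] at h1
    show ‖star y * (pad 0 v : CStarMatrix (Fin k) (Fin k) A) * y -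
      (pad 0 u : CStarMatrix (Fin k) (Fin k) A)‖ < ε
    rw [e, e, ← norm_emb hT]
    simp only [map_sub, map_mul, map_star, hy] at h1 ⊢
    have hF : star (emb hT k (dg k f)) = emb hT k (dg k f) := by rw [← map_star, ← map_star, h3]
    have hn : ‖emb hT k (dg k f)‖ ≤ 1 :=
      (norm_emb hT _).trans_le ((NonUnitalStarAlgHom.norm_apply_le _ f).trans h2)
    set F := emb hT k (dg k f)
    set U := emb hT k u
    set V := emb hT k v
    have e2 : star (F * z * F) * V * (F * z * F) - U =
        F * (star z * (F * V * F - V) * z + (star z * V * z - U)) * F + (F * U * F - U) := by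
      simp only [star_mul, hF]
      noncomm_ring
    have k1 : ∀ w, ‖F * w * F‖ ≤ ‖w‖ := fun w => (norm_mul_le _ _).trans
      ((mul_le_of_le_one_right (norm_nonneg _) hn).trans ((norm_mul_le _ _).trans
        (mul_le_of_le_one_left (norm_nonneg _) hn)))
    have k2 : ‖star z * (F * V * F - V) * z‖ ≤ ‖z‖ * ‖z‖ * ‖F * V * F - V‖ :=
      norm_mul₃_le.trans_eq (by rw [norm_star]; ring)
    have k3 := norm_add_le (star z * (F * V * F - V) * z) (star z * V * z - U)
    rw [e2]
    refine ((norm_add_le _ _).trans (add_le_add (k1 _) le_rfl)).trans_lt ?_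
    linarith
  · intro h
    choose n x hx using fun j : ℕ => h (1 / ((j : ℝ) + 1)) (by positivity)
    refine ⟨fun j => emb hT _ (x j), squeeze_zero (fun _ => norm_nonneg _) (fun j => ?_)
      tendsto_one_div_add_atTop_nhds_zero_nat⟩
    rw [← emb_pad hT (n j) u, ← emb_pad hT (n j) v, ← map_star, ← map_mul, ← map_mul, ← map_sub,
      norm_emb]
    exact (hx j).le

include hT

theorem propInf_iff {n : ℕ} (m : Matrix (Fin n) (Fin n) A) :
    PropInf T m ↔ ProperlyInfiniteMat (CStarMatrix.ofMatrix m) := by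
  rw [ProperlyInfiniteMat, ← cuntz_iff hT, emb_dsum]
  rfl

theorem pi_iff : PI T ↔ PurelyInfinite A := by
  refine forall₂_congr fun h _ => (propInf_iff hT _).trans ?_
  have e1 : dsum (CStarMatrix.ofMatrix !![h]) (CStarMatrix.ofMatrix !![h]) =
      CStarMatrix.ofMatrix !![h, 0; 0, h] := CStarMatrix.ext fun i j => by
    fin_cases i <;> fin_cases j <;> rfl
  have e2 : dsum (CStarMatrix.ofMatrix !![h]) (0 : CStarMatrix (Fin 1) (Fin 1) A) =
      CStarMatrix.ofMatrix !![h, 0; 0, 0] := CStarMatrix.ext fun i j => by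
    fin_cases i <;> fin_cases j <;> rfl
  rw [ProperlyInfiniteMat, e1, e2]
  rfl

theorem wpi_iff : WPI T ↔ WeaklyPurelyInfinite A :=
  exists_congr fun _ => and_congr_right fun _ => forall₂_congr fun _ _ => propInf_iff hT _

end

end Vale.Agent.P133K
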